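import Vale.Agent.P106.R.E.Defs

/-!
# P106 / R / E3 : the excess of the framework is at most the counting excess (helper113)

For a fixed value `(B, T₀)` of the random box and of the time block, all planks of level `c` which occur lie in the one
real box `B`, hence their number is at most `2^((e+ε) L) * bvol B` (`ExU`), and `H(X | Z) ≤ E log #`.
-/

set_option autoImplicit false

namespace Vale.Agent.P106.R.E3

open Filter Topology Finset Vale.Agent.P127 Vale.Agent.P127.Stk Vale.Agent.P127.U Vale.Agent.P127.U.Sys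
  Vale.Agent.P106.R.C2 Vale.Agent.P106.R.E
open Vale.Agent.P106.W (Cbx)

/-- counting bound with a random real number of values -/
theorem hc_le_exlog {Ω : Type} [Fintype Ω] {α β : Type*} (P : Law Ω) (X : Ω → α) (Y : Ω → β) (B : Ω → ℝ)
    (h : ∀ ω, 0 < P.w ω → ∀ U : Finset α, (∀ x ∈ U, ∃ ω', 0 < P.w ω' ∧ Y ω' = Y ω ∧ X ω' = x) → (U.card : ℝ) ≤ B ω) :
    Stk.hc P X Y ≤ P.ex fun ω => Real.log (B ω) := by
  classical
  let F : β → Finset α := fun y => (univ.filter fun ω => 0 < P.w ω ∧ Y ω = y).image X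
  have hF1 : ∀ ω, 0 < P.w ω → X ω ∈ F (Y ω) := by
    intro ω hω
    exact Finset.mem_image_of_mem X (by simp [hω])
  have hF2 : ∀ ω, 0 < P.w ω → ((F (Y ω)).card : ℝ) ≤ B ω := by
    intro ω hω
    refine h ω hω _ fun x hx => ?_
    obtain ⟨ω', h1, rfl⟩ := Finset.mem_image.1 hx
    simp only [Finset.mem_filter, Finset.mem_univ, true_and] at h1
    exact ⟨ω', h1.1, h1.2, rfl⟩
  have hF3 : ∀ ω, 0 < P.w ω → (0:ℝ) < (F (Y ω)).card := by
    intro ω hω
    exact_mod_cast Finset.card_pos.2 ⟨_, hF1 ω hω⟩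
  have hg := P.gibbs_cond X Y (fun x y => if x ∈ F y then 1 / ((F y).card : ℝ) else 0)
    (fun x y => by split_ifs <;> positivity) ?_ (fun ω hω => by
      rw [if_pos (hF1 ω hω)]
      have := hF3 ω hω
      positivity)
  · refine le_trans hg (P.ex_mono fun ω hω => ?_)
    rw [if_pos (hF1 ω hω), one_div, Real.log_inv, neg_neg]
    exact Real.log_le_log (hF3 ω hω) (hF2 ω hω)
  · intro y G
    rw [← Finset.sum_filter, Finset.sum_const, nsmul_eq_mul, mul_one_div]
    refine div_le_one_of_le₀ ?_ (Nat.cast_nonneg _)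
    have : (G.filter (fun x => x ∈ F y)).card ≤ (F y).card :=
      Finset.card_le_card fun x hx => (Finset.mem_filter.1 hx).2
    exact_mod_cast this

/-- relative volumes of admissible boxes are at least `1` -/
theorem one_le_bvol {s : Sl} {n c : ℕ} {B : Cbx} (h : Okb s n c c B) : 1 ≤ bvol s n c B := by
  have hr : (2 : ℝ) ^ (c * n) / 2 ^ (2 * c * n) = (1 / 2 : ℝ) ^ (c * n) := by
    have : 2 * c * n = c * n + c * n := by ring
    rw [this, pow_add, one_div, inv_pow]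
    field_simp
  have h1 := h.r1
  have h2 := h.u12
  rw [hr] at h1
  unfold bvol Cbx.vol
  have hp : (0 : ℝ) < (1 / 2 : ℝ) ^ (c * n) := by positivity
  have h3 : 1 ≤ B.u1 * B.u2 / ((1 / 2 : ℝ) ^ (c * n)) ^ 2 := by
    rw [le_div_iff₀ (by positivity), one_mul, sq]
    exact mul_le_mul h1 (h1.trans h2) hp.le (hp.le.trans h1)
  exact one_le_mul_of_one_le_of_one_le h3 (le_max_left _ _)

/-- relative volumes of admissible boxes are at most `2^(4 c n)` -/
theorem bvol_le {s : Sl} {n c : ℕ} {B : Cbx} (h : Okb s n c c B) : bvol s n c B ≤ 2 ^ (4 * c * n) := by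
  have hr : (2 : ℝ) ^ (c * n) / 2 ^ (2 * c * n) = (1 / 2 : ℝ) ^ (c * n) := by
    have : 2 * c * n = c * n + c * n := by ring
    rw [this, pow_add, one_div, inv_pow]
    field_simp
  have h1 := h.r1
  have h2 := h.u12
  have h3 := h.u2
  rw [hr] at h1
  have hp : (0 : ℝ) < (1 / 2 : ℝ) ^ (c * n) := by positivity
  have hu1 : 0 < B.u1 := hp.trans_le h1
  have hu2 : 0 < B.u2 := hu1.trans_le h2
  have h4 : B.u1 * B.u2 / ((1 / 2 : ℝ) ^ (c * n)) ^ 2 ≤ 2 ^ (2 * c * n) := by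
    rw [div_le_iff₀ (by positivity)]
    have e : (2 : ℝ) ^ (2 * c * n) * ((1 / 2 : ℝ) ^ (c * n)) ^ 2 = 1 := by
      rw [← pow_mul, one_div, inv_pow]
      have : c * n * 2 = 2 * c * n := by ring
      rw [this]
      exact mul_inv_cancel₀ (by positivity)
    rw [e]
    exact mul_le_one₀ (h2.trans h3) hu2.le h3
  have h5 : max 1 (B.u2 ^ 2 / W.hh n s.h c) ≤ 2 ^ (2 * c * n) := by
    refine max_le (one_le_pow₀ (by norm_num)) ?_
    unfold W.hh
    rw [div_div_eq_mul_div]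
    rw [div_le_iff₀ (by positivity)]
    have g1 : B.u2 ^ 2 ≤ 1 := pow_le_one₀ hu2.le h3
    have g2 : (1 : ℝ) ≤ 2 ^ (s.h * n) := one_le_pow₀ (by norm_num)
    have g3 : (0 : ℝ) < 2 ^ (2 * c * n) := by positivity
    calc B.u2 ^ 2 * 2 ^ (2 * c * n) ≤ 1 * 2 ^ (2 * c * n) := mul_le_mul_of_nonneg_right g1 g3.le
      _ = 2 ^ (2 * c * n) * 1 := by ring
      _ ≤ 2 ^ (2 * c * n) * 2 ^ (s.h * n) := mul_le_mul_of_nonneg_left g2 g3.le
  unfold bvol Cbx.vol
  calc _ ≤ (2 : ℝ) ^ (2 * c * n) * 2 ^ (2 * c * n) := by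
        refine mul_le_mul h4 h5 ?_ (by positivity)
        exact zero_le_one.trans (le_max_left _ _)
    _ = 2 ^ (4 * c * n) := by
        rw [← pow_add]
        congr 1
        ring

variable {K : ℕ} (F : Flg K)

/-- `0 ≤ lv ≤ 4 L` for random boxes -/
theorem lv_bd {c : ℕ} (hc : c ≤ K) {S' : Sys} (ex : Ext S' F.S) (W : S'.RV Cbx) (h : F.InW ex c c W) :
    S'.Ae fun i ω => 0 ≤ F.lv c W i ω ∧ F.lv c W i ω ≤ 4 * S'.L i := by
  filter_upwards [h] with i hi ω hω
  obtain ⟨h1, -⟩ := hi ω hω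
  have g1 := one_le_bvol h1
  have g2 := bvol_le h1
  have g3 : 0 < bvol (F.s i) (F.n i) c (W i ω) := by linarith
  unfold Flg.lv
  refine ⟨Real.logb_nonneg (by norm_num) g1, ?_⟩
  rw [Real.logb_le_iff_le_rpow (by norm_num) g3]
  refine g2.trans ?_
  rw [← Real.rpow_natCast]
  refine Real.rpow_le_rpow_of_exponent_le (by norm_num) ?_
  have e : S'.L i = K * F.n i := by rw [ex.L_eq]; exact F.L_eq i
  rw [e]
  push_cast
  have hc' : (c : ℝ) ≤ K := by exact_mod_cast hc
  have hn : (0 : ℝ) ≤ F.n i := Nat.cast_nonneg _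
  nlinarith [mul_le_mul_of_nonneg_right hc' hn]

theorem lv_OL {c : ℕ} (hc : c ≤ K) {S' : Sys} (ex : Ext S' F.S) (W : S'.RV Cbx) (h : F.InW ex c c W) :
    Sys.OL (S := S') (F.lv c W) := by
  refine ⟨4, ?_⟩
  filter_upwards [lv_bd F hc ex W h] with i hi ω hω
  obtain ⟨h1, h2⟩ := hi ω hω
  rw [abs_of_nonneg h1]
  exact h2

/-- the finite inequality -/
theorem hc_fin {c : ℕ} {e ε : ℝ} (hE : ExU F c e) (hε : 0 < ε) {S' : Sys} (ex : Ext S' F.S) (W : S'.RV Cbx)
    (h : F.InW ex c c W) : ∀ᶠ i in (uf : Filter ℕ),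
      Stk.hc (S'.P i) (ex.pull (F.N c) i) (Sys.pr W (ex.pull (F.ball c)) i) / S'.nm i ≤
        (e + ε) + (S'.P i).ex (F.lv c W i) / S'.L i := by
  classical
  filter_upwards [h, hE ε hε, S'.nm_pos, S'.L_pos] with i hi hD hnm hL
  have hlog : (0 : ℝ) < Real.log 2 := Real.log_pos (by norm_num)
  have hL' : (0 : ℝ) < S'.L i := by exact_mod_cast hL
  have key : Stk.hc (S'.P i) (ex.pull (F.N c) i) (Sys.pr W (ex.pull (F.ball c)) i) ≤
      (S'.P i).ex fun ω => Real.log ((2 : ℝ) ^ ((e + ε) * F.S.L i) * bvol (F.s i) (F.n i) c (W i ω)) := by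
    refine hc_le_exlog (S'.P i) _ _ _ fun ω hω U hU => ?_
    refine hD (W i ω) (F.T c i (ex.π i ω)) U (hi ω hω).1 fun S hS => ?_
    obtain ⟨ω', h1, h2, h3⟩ := hU S hS
    have h4 : W i ω' = W i ω := congrArg Prod.fst h2
    have h5 : F.T c i (ex.π i ω') = F.T c i (ex.π i ω) := congrArg Prod.snd h2
    have h6 : F.N c i (ex.π i ω') = S := h3
    refine ⟨⟨ex.π i ω', ex.w_pos i h1, h6⟩, ?_, ?_⟩
    · rw [← h6, ← h5]; rfl
    · have := (hi ω' h1).2
      rw [h4] at this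
      rw [← h6]
      exact this
  have e1 : (S'.P i).ex (fun ω => Real.log ((2 : ℝ) ^ ((e + ε) * F.S.L i) * bvol (F.s i) (F.n i) c (W i ω))) =
      (e + ε) * S'.L i * Real.log 2 + Real.log 2 * (S'.P i).ex (F.lv c W i) := by
    have e2 : (S'.P i).ex (fun ω => Real.log ((2 : ℝ) ^ ((e + ε) * F.S.L i) * bvol (F.s i) (F.n i) c (W i ω))) =
        (S'.P i).ex (fun ω => (e + ε) * S'.L i * Real.log 2 + Real.log 2 * F.lv c W i ω) := by
      refine (S'.P i).ex_congr fun ω hω => ?_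
      have g1 := one_le_bvol (hi ω hω).1
      have g3 : bvol (F.s i) (F.n i) c (W i ω) ≠ 0 := by linarith
      rw [Real.log_mul (by positivity) g3, Real.log_rpow (by norm_num), ex.L_eq]
      unfold Flg.lv Real.logb
      field_simp
    rw [e2, (S'.P i).ex_add, (S'.P i).ex_const, (S'.P i).ex_const_mul]
  rw [e1] at key
  unfold Sys.nm
  rw [div_le_iff₀ (mul_pos hL' hlog)]
  refine key.trans (le_of_eq ?_)
  field_simp

theorem e3 : E.E3 := by
  intro K F c e hK hc he hE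
  refine Real.sSup_le ?_ he
  rintro v ⟨S', ex, W, hW, rfl⟩
  have hav := UB.av (lv_OL F hc ex W hW)
  have hub : UB fun i => Stk.hc (S'.P i) (ex.pull (F.N c) i) (Sys.pr W (ex.pull (F.ball c)) i) / S'.nm i := by
    obtain ⟨C, hC⟩ := hav
    refine UB.of_le (C := (e + 1) + C) ?_ ?_
    · filter_upwards [S'.nm_pos] with i hi
      exact div_nonneg (Stk.hc_nonneg _ _ _) hi.le
    · filter_upwards [hc_fin F hE one_pos ex W hW, hC] with i h1 h2
      have := (abs_le.1 h2).2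
      linarith
  refine le_of_forall_pos_le_add fun ε hε => ?_
  unfold Sys.hc Sys.av
  rw [← ulim_sub hub hav]
  refine ulim_le_const (hub.sub hav) ?_
  filter_upwards [hc_fin F hE hε ex W hW] with i h1
  linarith

end Vale.Agent.P106.R.E3
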